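import Vale.Agent.Lib.P072.V.VFinal

/-!
# P072: the permanence theorems without definitions
-/

namespace Vale.Agent.P072

open Filter Set

/-- the network with complexes `C` and reactions `R` -/
private def drawNet {d : ℕ} (C : Finset (Fin d → ℕ)) (R : Finset ((Fin d → ℕ) × (Fin d → ℕ)))
    (hR : ∀ y y', (y, y') ∈ R → y ∈ C ∧ y' ∈ C ∧ y ≠ y') : Network d where
  complexes := C
  reactions := R
  source_mem r hr := (hR r.1 r.2 hr).1
  target_mem r hr := (hR r.1 r.2 hr).2.1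
  source_ne_target r hr := (hR r.1 r.2 hr).2.2

theorem inlined (d : ℕ) (C : Finset (Fin d → ℕ)) (R : Finset ((Fin d → ℕ) × (Fin d → ℕ)))
    (hR : ∀ y y', (y, y') ∈ R → y ∈ C ∧ y' ∈ C ∧ y ≠ y')
    (hrev : ∀ y y', (y, y') ∈ R → Relation.ReflTransGen (fun a b => (a, b) ∈ R) y' y)
    (c : Fin d → ℝ) (hc : ∀ i, 0 < c i) :
    let S : Submodule ℝ (Fin d → ℝ) :=
      Submodule.span ℝ {v | ∃ y y', (y, y') ∈ R ∧ v = fun i => (y' i : ℝ) - (y i : ℝ)}
    let P : Set (Fin d → ℝ) := {x | (∀ i, 0 < x i) ∧ x - c ∈ S}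
    let f : ((Fin d → ℕ) → (Fin d → ℕ) → ℝ) → (Fin d → ℝ) → Fin d → ℝ := fun k x i =>
      ∑ r ∈ R, k r.1 r.2 * (∏ j, x j ^ r.1 j) * ((r.2 i : ℝ) - (r.1 i : ℝ))
    (∀ k : (Fin d → ℕ) → (Fin d → ℕ) → ℝ, (∀ y y', (y, y') ∈ R → 0 < k y y') →
      ∃ K ⊆ P, IsCompact K ∧ ∀ x₀ ∈ P, ∃ x : ℝ → Fin d → ℝ, x 0 = x₀ ∧
        (∀ t ≥ 0, HasDerivWithinAt x (f k (x t)) (Ici 0) t) ∧
        (∀ t ≥ 0, x t ∈ P) ∧ (∀ᶠ t in atTop, x t ∈ K) ∧
        ∀ (T : ℝ) (z : ℝ → Fin d → ℝ), z 0 = x₀ →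
          (∀ t ∈ Ico 0 T, HasDerivWithinAt z (f k (z t)) (Ico 0 T) t) →
          ∀ t ∈ Ico 0 T, z t = x t) ∧
    (∀ ε > 0, ∃ K ⊆ P, IsCompact K ∧ ∀ k : ℝ → (Fin d → ℕ) → (Fin d → ℕ) → ℝ,
      (∀ y y', (y, y') ∈ R →
        Measurable (fun t => k t y y') ∧ ∀ t ≥ 0, ε ≤ k t y y' ∧ k t y y' ≤ ε⁻¹) →
      ∀ x₀ ∈ P, ∃ x : ℝ → Fin d → ℝ, ContinuousOn x (Ici 0) ∧
        (∀ t ≥ 0, x t = x₀ + ∫ s in (0 : ℝ)..t, f (k s) (x s)) ∧
        (∀ t ≥ 0, x t ∈ P) ∧ (∀ᶠ t in atTop, x t ∈ K) ∧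
        ∀ (T : ℝ) (z : ℝ → Fin d → ℝ), ContinuousOn z (Ico 0 T) →
          (∀ t ∈ Ico 0 T, z t = x₀ + ∫ s in (0 : ℝ)..t, f (k s) (z s)) →
          ∀ t ∈ Ico 0 T, z t = x t) := by
  intro S P f
  have hwr : (drawNet C R hR).WeaklyReversible := fun r hr => hrev r.1 r.2 hr
  have hf : ∀ (k : (Fin d → ℕ) → (Fin d → ℕ) → ℝ) (x : Fin d → ℝ),
      (drawNet C R hR).field (fun r => k r.1 r.2) x = f k x := by
    intro k x
    funext i
    simp only [Network.field, monom, Finset.sum_apply, Pi.smul_apply, smul_eq_mul]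
    rfl
  have hS : (drawNet C R hR).stoich = S := by
    unfold Network.stoich
    congr 1
    ext v
    constructor
    · rintro ⟨r, hr, rfl⟩
      exact ⟨r.1, r.2, hr, rfl⟩
    · rintro ⟨y, y', hr, rfl⟩
      exact ⟨(y, y'), hr, rfl⟩
  have hP : (drawNet C R hR).posClass c = P := by
    unfold Network.posClass
    rw [hS]
  constructor
  · intro k hk
    have hp := permanent (drawNet C R hR) hwr (fun r => k r.1 r.2)
      (fun r hr => hk r.1 r.2 hr) c hc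
    have hsol : ∀ (I : Set ℝ) (x : ℝ → Fin d → ℝ),
        (drawNet C R hR).IsSolution (fun r => k r.1 r.2) I x ↔
          ∀ t ∈ I, HasDerivWithinAt x (f k (x t)) I t := by
      intro I x
      unfold Network.IsSolution
      simp only [hf]
    obtain ⟨K, hK1, hK2, hK3⟩ := hp.exists_compact
    rw [hP] at hK2
    refine ⟨K, hK2, hK1, fun x₀ hx₀ => ?_⟩
    obtain ⟨x, h0, hx⟩ := hp.exists_solution x₀ (hP ▸ hx₀)
    have hx0 : x 0 ∈ (drawNet C R hR).posClass c := by rw [h0, hP]; exact hx₀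
    refine ⟨x, h0, fun t ht => (hsol _ _).1 hx t ht, fun t ht => ?_, ?_, fun T z hz0 hz t ht => ?_⟩
    · have := hp.mem_class x hx hx0 t ht
      rwa [hP] at this
    · obtain ⟨T, hT⟩ := hK3 x hx hx0
      filter_upwards [eventually_ge_atTop T] with t ht using hT t ht
    · exact hp.unique x hx hx0 T z ((hsol _ _).2 hz) (by rw [hz0, h0]) t ht
  · intro ε hε
    have hp := permanentV (drawNet C R hR) hwr ε hε c hc
    obtain ⟨K, hK1, hK2, hK3⟩ := hp.exists_compact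
    rw [hP] at hK2
    refine ⟨K, hK2, hK1, fun k hk x₀ hx₀ => ?_⟩
    have hadm : (drawNet C R hR).Admissible ε (fun t r => k t r.1 r.2) := fun r hr =>
      ⟨(hk r.1 r.2 hr).1, fun t ht => (hk r.1 r.2 hr).2 t ht⟩
    have hint : ∀ (x : ℝ → Fin d → ℝ) (t : ℝ),
        (∫ s in (0 : ℝ)..t, (drawNet C R hR).field (fun r => k s r.1 r.2) (x s)) =
          ∫ s in (0 : ℝ)..t, f (k s) (x s) := by
      intro x t
      simp only [hf]
    obtain ⟨x, h0, hx⟩ := hp.exists_solution _ hadm x₀ (hP ▸ hx₀)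
    have hx0 : x 0 ∈ (drawNet C R hR).posClass c := by rw [h0, hP]; exact hx₀
    refine ⟨x, hx.1, fun t ht => ?_, fun t ht => ?_, ?_, fun T z hzc hz t ht => ?_⟩
    · have h1 := hx.2 t ht
      rw [hint, h0] at h1
      exact h1
    · have := hp.mem_class _ hadm x hx hx0 t ht
      rwa [hP] at this
    · obtain ⟨T, hT⟩ := hK3 _ hadm x hx hx0
      filter_upwards [eventually_ge_atTop T] with t ht using hT t ht
    · have hT0 : (0 : ℝ) ∈ Ico 0 T := ⟨le_rfl, ht.1.trans_lt ht.2⟩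
      have hz0 : z 0 = x₀ := by
        have h1 := hz 0 hT0
        rw [intervalIntegral.integral_same, add_zero] at h1
        exact h1
      refine hp.unique _ hadm x hx hx0 T z ⟨hzc, fun s hs => ?_⟩ (by rw [hz0, h0]) t ht
      rw [hint, hz0]
      exact hz s hs

end Vale.Agent.P072
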